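import Mathlib
import Vale.Agent.Lib.P355.Roots

namespace Vale.Agent.Results.P355.RootOfUnityBases

open Vale.Agent.Lib.P355

/-- Two vectors of `ℂ^6` whose coordinates are all `6^(-1/2)` times fourth roots of unity are never
unbiased (the squared modulus of their inner product is not `1/6`); the same holds for two vectors
whose coordinates are all `6^(-1/2)` times sixth roots of unity. -/
theorem result :
    (∀ b c : EuclideanSpace ℂ (Fin 6),
      (∀ j, ((Real.sqrt 6 : ℂ) * b j) ^ 4 = 1) → (∀ j, ((Real.sqrt 6 : ℂ) * c j) ^ 4 = 1) →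
        ‖inner ℂ b c‖ ^ 2 ≠ 1 / 6) ∧
    (∀ b c : EuclideanSpace ℂ (Fin 6),
      (∀ j, ((Real.sqrt 6 : ℂ) * b j) ^ 6 = 1) → (∀ j, ((Real.sqrt 6 : ℂ) * c j) ^ 6 = 1) →
        ‖inner ℂ b c‖ ^ 2 ≠ 1 / 6) :=
  ⟨not_unbiased_four, not_unbiased_six⟩

end Vale.Agent.Results.P355.RootOfUnityBases
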